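import Vale.Agent.P196.Bdl.B1

universe u v

/-- Necessary conditions on an infinite finitely presented simple (amenable) group. -/
theorem Vale.Agent.Results.P196.Main.result :
    -- (A) every infinite finitely presented simple amenable group `G`:
    (∀ (G : Type u) [Group G] [Group.IsFinitelyPresented G] [IsSimpleGroup G] [Infinite G],
      Vale.Agent.P196.IsAmenable G →
      -- (A1) every nontrivial action has asymptotic dimension at least two, uniformly
      (∃ F : Finset G, ∀ (X : Type v) [MulAction G X], (∃ (g : G) (x : X), g • x ≠ x) →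
        ∀ (r : Setoid X) (M : ℕ), (∀ x, {y | r x y}.encard ≤ M) →
          ∃ x : X, ∃ a ∈ F, ∃ b ∈ F, ∃ c ∈ F,
            ¬ r (a • x) (b • x) ∧ ¬ r (a • x) (c • x) ∧ ¬ r (b • x) (c • x)) ∧
      -- (A2) every nontrivial action has at least quadratic growth, uniformly
      (∀ A : Set G, A.Finite → Subgroup.closure A = ⊤ →
        ∃ c : ℕ, ∀ (X : Type v) [MulAction G X], (∃ (g : G) (x : X), g • x ≠ x) →
          ∀ m : ℕ, ∃ x : X, m ^ 2 ≤ c * {y : X | ∃ w : List G, w.length ≤ m ∧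
            (∀ a ∈ w, a ∈ A ∨ a⁻¹ ∈ A) ∧ y = w.prod • x}.ncard) ∧
      -- (A3) `G` acts trivially by bounded displacement on spaces of asymptotic dimension <= 1
      (∀ (Y : Type v) [PseudoMetricSpace Y],
        (∀ r : ℝ, ∃ b : ℕ, ∀ y : Y, (Metric.closedBall y r).encard ≤ b) →
        (∀ r : ℝ, ∃ (D : ℝ) (𝒰 : Set (Set Y)), (∀ y : Y, ∃ U ∈ 𝒰, y ∈ U) ∧
          (∀ U ∈ 𝒰, ∀ y ∈ U, ∀ z ∈ U, dist y z ≤ D) ∧
          ∀ y : Y, {U ∈ 𝒰 | (U ∩ Metric.closedBall y r).Nonempty}.encard ≤ 2) →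
        ∀ (X : Type v) [MulAction G X] (π : X → Y) (k : ℕ), (∀ y, (π ⁻¹' {y}).encard ≤ k) →
          (∀ g : G, ∃ L : ℝ, ∀ x, dist (π x) (π (g • x)) ≤ L) →
          ∀ (g : G) (x : X), g • x = x)) ∧
    -- (B) every infinite finitely presented simple group `G` (amenable or not): no infinite
    -- Schreier graph has an exhaustion with bounded boundary, all grow superlinearly
    (∀ (G : Type u) [Group G] [Group.IsFinitelyPresented G] [IsSimpleGroup G] [Infinite G]
      (S : Set G), S.Finite → Subgroup.closure S = ⊤ →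
      ∀ (Ω : Type v) [MulAction G Ω] [MulAction.IsPretransitive G Ω] [Infinite Ω],
        Filter.Tendsto (fun D : Finset Ω => {v : Ω | v ∈ D ∧ ∃ s ∈ S, s • v ∉ D}.ncard)
          Filter.atTop Filter.atTop ∧
        ∀ (v : Ω) (C : ℕ), ∀ᶠ n : ℕ in Filter.atTop,
          C * n ≤ {x : Ω | ∃ w : List G, w.length ≤ n ∧ (∀ s ∈ w, s ∈ S ∨ s⁻¹ ∈ S) ∧
            x = w.prod • v}.ncard) ∧
    -- (C) topological full groups of single homeomorphisms, minimal or not
    (∀ (X : Type u) [TopologicalSpace X] (φ : X ≃ₜ X) (G : Subgroup (X ≃ₜ X)),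
      (∀ g ∈ G, ∃ n : X → ℤ, IsLocallyConstant n ∧ (Set.range n).Finite ∧
        ∀ x, g x = (φ ^ n x) x) →
      Group.IsFinitelyPresented G →
      (G ≠ ⊥ → ∃ N : Subgroup G, N.Normal ∧ N.FiniteIndex ∧ N ≠ ⊤) ∧
      (IsSimpleGroup G → Finite G)) :=
  ⟨fun _ _ _ _ _ hG => Vale.Agent.P196.asdim_main hG,
    fun _ _ _ _ _ S hSf hS Ω _ _ _ =>
      ⟨Vale.Agent.P196.B.boundary_tendsto Vale.Agent.P196.B.simple_no_quotient S hS Ω,
        fun v C => Vale.Agent.P196.B.growth_superlinear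
          Vale.Agent.P196.B.simple_no_quotient S hSf hS Ω v C⟩,
    fun _ _ φ G hG hfp => by
      haveI := hfp
      exact Vale.Agent.P196.B.full_group_main φ G hG⟩
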